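import Vale.Agent.P262.Trans

namespace Vale.Agent.Results.P262.SqrtDim

/-- Euclidean signed initial sums and the Euclidean Steinitz constant are `O(√d)`. -/
theorem result : ∃ C : ℝ, ∀ (d N : ℕ) (v : Fin N → EuclideanSpace ℝ (Fin d)),
    (∀ i, ‖v i‖ ≤ 1) →
      (∃ ε : Fin N → ℝ, (∀ i, ε i = 1 ∨ ε i = -1) ∧
        ∀ k : ℕ, ‖∑ i ∈ Finset.univ.filter (fun i : Fin N => i.val < k), ε i • v i‖ ≤
          C * Real.sqrt d) ∧
      (∑ i, v i = 0 → ∃ π : Equiv.Perm (Fin N),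
        ∀ k : ℕ, ‖∑ i ∈ Finset.univ.filter (fun i : Fin N => i.val < k), v (π i)‖ ≤
          C * Real.sqrt d) :=
  ⟨33 * 10 ^ 8, fun d N v hv => ⟨Vale.Agent.P262.euclid d N v hv, fun h0 =>
    Vale.Agent.P262.transfer v h0 fun π =>
      Vale.Agent.P262.euclid d N (fun i => v (π i)) fun i => hv (π i)⟩⟩

end Vale.Agent.Results.P262.SqrtDim
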